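import Vale.Agent.P336.H663.Circuits

/-!
# P336: from correlation bounds to the size of depth-three circuits
-/

set_option linter.unusedSectionVars false

namespace Vale.Agent.P336

open Finset Vale.Agent.P336.Expansion

/-- The sign of a Boolean function: `1` where it is true, `-1` where it is false. -/
def sgn {V : Type} (f : (V → Bool) → Bool) (x : V → Bool) : ℝ := if f x then 1 else -1

variable {V : Type} [Fintype V] [DecidableEq V]

theorem prod_ind (C : ℕ → Cl V) (M : ℕ) (x : V → Bool) [Decidable (∀ i < M, ¬ ∀ v ∈ (C i).S, x v = (C i).c v)] :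
    ∏ i ∈ range M, ind (C i) x = if ∀ i < M, ¬ ∀ v ∈ (C i).S, x v = (C i).c v then 1 else 0 := by
  split_ifs with h
  · refine prod_eq_one fun i hi => ?_
    unfold ind
    rw [if_neg (h i (mem_range.1 hi))]
  · rw [not_forall] at h
    obtain ⟨i, hi⟩ := h
    rw [Classical.not_imp, not_not] at hi
    refine prod_eq_zero (mem_range.2 hi.1) ?_
    unfold ind
    rw [if_pos hi.2]

/-- The correlation bound for all conjunctions of clauses of width at most `k`. -/
def Corr (g : (V → Bool) → ℝ) (k : ℕ) (δ : ℝ) : Prop :=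
  ∀ (M : ℕ) (C : ℕ → Cl V), (∀ i < M, (C i).S.card ≤ k) →
    |∑ x, g x * ∏ i ∈ range M, ind (C i) x| ≤ δ * 2 ^ Fintype.card V

open Classical in
/-- The correlation bound for a set of clauses indexed by a finite type. -/
theorem corr_fintype {g : (V → Bool) → ℝ} {k : ℕ} {δ : ℝ}
    (h : Corr g k δ) {I : Type} [Fintype I] (C : I → Cl V) (P : Set I)
    (hP : ∀ i ∈ P, (C i).S.card ≤ k) :
    |∑ x with ∀ i ∈ P, ¬ ∀ v ∈ (C i).S, x v = (C i).c v, g x| ≤ δ * 2 ^ Fintype.card V := by
  by_cases hne : Nonempty {i // i ∈ P}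
  · obtain ⟨i0⟩ := hne
    let e := Fintype.equivFin {i // i ∈ P}
    let C' : ℕ → Cl V := fun j =>
      if hj : j < Fintype.card {i // i ∈ P} then C (e.symm ⟨j, hj⟩).1 else C i0.1
    have h1 := h (Fintype.card {i // i ∈ P}) C' fun j hj => by
      simp only [C', dif_pos hj]
      exact hP _ (e.symm ⟨j, hj⟩).2
    refine le_trans (le_of_eq ?_) h1
    congr 1
    rw [sum_filter]
    refine sum_congr rfl fun x _ => ?_
    rw [prod_ind]
    have h2 : (∀ i ∈ P, ¬ ∀ v ∈ (C i).S, x v = (C i).c v) ↔
        ∀ j < Fintype.card {i // i ∈ P}, ¬ ∀ v ∈ (C' j).S, x v = (C' j).c v := by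
      constructor
      · intro h3 j hj
        simp only [C', dif_pos hj]
        exact h3 _ (e.symm ⟨j, hj⟩).2
      · intro h3 i hi
        have h4 := h3 (e ⟨i, hi⟩) (e ⟨i, hi⟩).2
        simpa only [C', Fin.is_lt, dite_true, Fin.eta, Equiv.symm_apply_apply] using h4
    split_ifs with h3 h4 h4
    · rw [mul_one]
    · exact absurd (h2.1 h3) h4
    · exact absurd (h2.2 h4) h3
    · rw [mul_zero]
  · have h1 := h 0 (fun _ => ⟨∅, fun _ => false⟩) (by simp)
    refine le_trans (le_of_eq ?_) h1
    congr 1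
    rw [sum_filter]
    refine sum_congr rfl fun x _ => ?_
    rw [if_pos fun i hi => absurd ⟨i, hi⟩ hne]
    simp

/-- Renaming of the variables of a clause. -/
def Cl.map {W : Type} (e : V ≃ W) (C : Cl W) : Cl V :=
  ⟨C.S.map e.symm.toEmbedding, fun v => C.c (e v)⟩

/-- The correlation bound does not depend on the names of the variables. -/
theorem Corr.map {W : Type} [Fintype W] [DecidableEq W] (e : V ≃ W) {g : (V → Bool) → ℝ} {k : ℕ}
    {δ : ℝ} (h : Corr g k δ) : Corr (fun x : W → Bool => g fun v => x (e v)) k δ := by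
  intro M C hC
  have h1 := h M (fun i => Cl.map e (C i)) fun i hi => by
    simpa only [Cl.map, card_map] using hC i hi
  rw [← Fintype.card_congr e]
  refine le_trans (le_of_eq ?_) h1
  congr 1
  refine Fintype.sum_equiv (Equiv.arrowCongr e.symm (Equiv.refl Bool)) _ _ fun x => ?_
  have h2 : ((Equiv.arrowCongr e.symm (Equiv.refl Bool)) x : V → Bool) = fun v => x (e v) := by
    funext v
    simp [Equiv.arrowCongr]
  rw [h2]
  congr 1
  refine prod_congr rfl fun i _ => ?_
  unfold ind
  refine if_congr ?_ rfl rfl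
  simp only [Cl.map, mem_map_equiv, Equiv.symm_symm]
  exact ⟨fun h3 v hv => h3 _ hv, fun h3 w hw => by
    simpa only [Equiv.apply_symm_apply] using h3 (e.symm w) (by simpa using hw)⟩

/-- Global step: a function with small correlation with the conjunctions of clauses of width at
most `k` needs large depth-three circuits. -/
theorem S3_of_corr {n : ℕ} (f : (Fin n → Bool) → Bool) {k : ℕ} {δ : ℝ} (hδ : δ ≤ 1 / 2)
    (h : Corr (sgn f) k δ) : 1 / 4 ≤ S3 f * δ + (S3 f : ℝ) ^ 2 / 2 ^ k := by
  classical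
  obtain ⟨K, hK, hf⟩ := exists_S3 f
  set T : ℝ := 2 ^ Fintype.card (Fin n) with hT
  have hN : 0 < T := by positivity
  have h0 := h 0 (fun _ => ⟨∅, fun _ => false⟩) (by simp)
  have hδ0 : 0 ≤ δ := by
    have h1 := (abs_nonneg _).trans h0
    exact nonneg_of_mul_nonneg_left h1 hN
  -- the set accepted by the middle gate `j`
  let F : Fin K.middle → Finset (Fin n → Bool) := fun j =>
    univ.filter fun x => ∀ i ∈ K.conj j, ∃ l ∈ K.lits i, l.eval x = true
  let P : Fin K.middle → Set (Fin K.bottom) := fun j => {i | i ∈ K.conj j ∧ Proper (K.lits i) ∧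
      (clOf (K.lits i)).S.card ≤ k}
  let F' : Fin K.middle → Finset (Fin n → Bool) := fun j =>
    univ.filter fun x => ∀ i ∈ P j, ¬ ∀ v ∈ (clOf (K.lits i)).S, x v = (clOf (K.lits i)).c v
  have hFF' : ∀ j, F j ⊆ F' j := by
    intro j x hx
    simp only [F, F', mem_filter, mem_univ, true_and] at hx ⊢
    rintro i ⟨hi, hp, _⟩
    exact (sat_iff hp x).1 (hx i hi)
  -- the points lost by the wide clauses
  let W : Finset (Fin K.bottom) := univ.filter fun i => Proper (K.lits i) ∧
      k < (clOf (K.lits i)).S.card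
  have hdiff : ∀ j, F' j \ F j ⊆ W.biUnion fun i =>
      univ.filter fun x => ∀ v ∈ (clOf (K.lits i)).S, x v = (clOf (K.lits i)).c v := by
    intro j x hx
    simp only [F, F', mem_sdiff, mem_filter, mem_univ, true_and, mem_biUnion, W] at hx ⊢
    obtain ⟨h1, h2⟩ := hx
    rw [not_forall] at h2
    obtain ⟨i, hi⟩ := h2
    rw [Classical.not_imp] at hi
    obtain ⟨hi, hx⟩ := hi
    have hp : Proper (K.lits i) := by
      by_contra hp
      exact hx (sat_of_not_proper hp x)
    rw [sat_iff hp, not_not] at hx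
    refine ⟨i, ⟨hp, ?_⟩, hx⟩
    by_contra hc
    exact h1 i ⟨hi, hp, not_lt.1 hc⟩ hx
  have hcl : ∀ i ∈ W, (((univ : Finset (Fin n → Bool)).filter fun x =>
      ∀ v ∈ (clOf (K.lits i)).S, x v = (clOf (K.lits i)).c v).card : ℝ) ≤ T / 2 ^ k := by
    intro i hi
    have h1 : ((univ : Finset (Fin n → Bool)).filter fun x =>
        ∀ v ∈ (clOf (K.lits i)).S, x v = (clOf (K.lits i)).c v).card *
        2 ^ (clOf (K.lits i)).S.card = 2 ^ Fintype.card (Fin n) := by
      convert card_false (clOf (K.lits i))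
    have h2 : k ≤ (clOf (K.lits i)).S.card := by
      have := (mem_filter.1 hi).2.2
      omega
    rw [le_div_iff₀ (by positivity), hT]
    have h3 : (((univ : Finset (Fin n → Bool)).filter fun x =>
      ∀ v ∈ (clOf (K.lits i)).S, x v = (clOf (K.lits i)).c v).card : ℝ) *
        2 ^ (clOf (K.lits i)).S.card = 2 ^ Fintype.card (Fin n) := by exact_mod_cast h1
    rw [← h3]
    refine mul_le_mul_of_nonneg_left ?_ (Nat.cast_nonneg _)
    exact pow_le_pow_right₀ (by norm_num) h2
  have hdc : ∀ j, ((F' j \ F j).card : ℝ) ≤ K.bottom * (T / 2 ^ k) := by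
    intro j
    have h1 : ((F' j \ F j).card : ℝ) ≤ ∑ i ∈ W, ((univ : Finset (Fin n → Bool)).filter fun x =>
      ∀ v ∈ (clOf (K.lits i)).S, x v = (clOf (K.lits i)).c v).card := by
      exact_mod_cast (card_le_card (hdiff j)).trans card_biUnion_le
    refine h1.trans ?_
    push_cast
    refine (sum_le_sum hcl).trans ?_
    rw [sum_const, nsmul_eq_mul]
    refine mul_le_mul_of_nonneg_right ?_ (by positivity)
    exact_mod_cast (card_le_univ W).trans (by simp)
  have hbad : ∀ j ∈ K.top, ((F j).card : ℝ) ≤ δ * T + K.bottom * (T / 2 ^ k) := by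
    intro j hj
    have h1 : ∀ x ∈ F j, sgn f x = 1 := by
      intro x hx
      simp only [F, mem_filter, mem_univ, true_and] at hx
      rw [sgn, if_pos ((hf x).1 ⟨j, hj, hx⟩)]
    have h2 : ((F j).card : ℝ) = ∑ x ∈ F j, sgn f x := by
      rw [sum_congr rfl h1]
      simp
    have h3 : ∑ x ∈ F' j, sgn f x = ∑ x ∈ F j, sgn f x + ∑ x ∈ F' j \ F j, sgn f x := by
      rw [add_comm, sum_sdiff (hFF' j)]
    have h4 : -((F' j \ F j).card : ℝ) ≤ ∑ x ∈ F' j \ F j, sgn f x := by
      have : ∑ x ∈ F' j \ F j, (-1 : ℝ) ≤ ∑ x ∈ F' j \ F j, sgn f x := by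
        refine sum_le_sum fun x _ => ?_
        unfold sgn
        split_ifs <;> norm_num
      simpa using this
    have h5 := corr_fintype h (fun i => clOf (K.lits i)) (P j) fun i hi => hi.2.2
    have h6 : ∑ x ∈ F' j, sgn f x ≤ δ * T := by
      refine (le_abs_self _).trans (le_trans (le_of_eq ?_) h5)
      congr!
    have h7 := hdc j
    linarith
  -- the number of accepted points
  have hone : (((univ : Finset (Fin n → Bool)).filter fun x => f x = true).card : ℝ) ≤
      K.middle * (δ * T + K.bottom * (T / 2 ^ k)) := by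
    have h1 : (univ.filter fun x => f x = true) ⊆
        (univ.filter fun j => j ∈ K.top).biUnion F := by
      intro x hx
      obtain ⟨j, hj, hx⟩ := (hf x).2 (mem_filter.1 hx).2
      exact mem_biUnion.2 ⟨j, mem_filter.2 ⟨mem_univ _, hj⟩, mem_filter.2 ⟨mem_univ _, hx⟩⟩
    have h2 : (((univ : Finset (Fin n → Bool)).filter fun x => f x = true).card : ℝ) ≤
        ∑ j with j ∈ K.top, ((F j).card : ℝ) := by
      exact_mod_cast (card_le_card h1).trans card_biUnion_le
    refine h2.trans ((sum_le_sum fun j hj => hbad j (mem_filter.1 hj).2).trans ?_)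
    rw [sum_const, nsmul_eq_mul]
    refine mul_le_mul_of_nonneg_right ?_ (by positivity)
    exact_mod_cast (card_le_univ _).trans (by simp)
  have htwo : (1 - δ) / 2 * T ≤ ((univ : Finset (Fin n → Bool)).filter fun x => f x = true).card := by
    have h1 : ∑ x, sgn f x * ∏ i ∈ range 0, ind ((fun _ => (⟨∅, fun _ => false⟩ : Cl (Fin n))) i) x =
        2 * ((univ : Finset (Fin n → Bool)).filter fun x => f x = true).card - T := by
      have h2 : ∀ x, sgn f x = 2 * (if f x = true then 1 else 0) - 1 := by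
        intro x
        unfold sgn
        split_ifs <;> norm_num
      simp only [range_zero, prod_empty, mul_one]
      rw [sum_congr rfl fun x _ => h2 x, sum_sub_distrib, ← mul_sum, sum_boole]
      simp [hT]
    rw [h1] at h0
    have := (abs_le.1 h0).1
    linarith
  have hB : (K.bottom : ℝ) ≤ S3 f := by
    rw [← hK]
    exact_mod_cast (by unfold Circuit.size; omega : K.bottom ≤ K.size)
  have hM : (K.middle : ℝ) ≤ S3 f := by
    rw [← hK]
    exact_mod_cast (by unfold Circuit.size; omega : K.middle ≤ K.size)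
  have h8 : (1 - δ) / 2 * T ≤ S3 f * (δ * T + S3 f * (T / 2 ^ k)) := by
    refine htwo.trans (hone.trans ?_)
    refine mul_le_mul hM ?_ (by positivity) (Nat.cast_nonneg _)
    have := mul_le_mul_of_nonneg_right hB (by positivity : 0 ≤ T / 2 ^ k)
    linarith
  have h9 : (S3 f : ℝ) * (δ * T + S3 f * (T / 2 ^ k)) =
      (S3 f * δ + (S3 f : ℝ) ^ 2 / 2 ^ k) * T := by
    field_simp
  rw [h9] at h8
  have h10 := le_of_mul_le_mul_right h8 hN
  linarith

/-- The global step for variables with other names. -/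
theorem S3_of_corr' {n : ℕ} (e : V ≃ Fin n) (f : (V → Bool) → Bool) {k : ℕ} {δ : ℝ}
    (hδ : δ ≤ 1 / 2) (h : Corr (sgn f) k δ) :
    1 / 4 ≤ S3 (fun x : Fin n → Bool => f fun v => x (e v)) * δ +
      (S3 (fun x : Fin n → Bool => f fun v => x (e v)) : ℝ) ^ 2 / 2 ^ k :=
  S3_of_corr _ hδ (h.map e)

end Vale.Agent.P336
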