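import Vale.Agent.P336.H663.Defs
import Vale.Agent.P336.H567.Expansion

/-!
# P336: facts about depth-three circuits

`S3` is attained, does not grow under substitution of literals and constants, and is large for
functions which have small correlation with CNFs of small width.
-/

set_option linter.unusedSectionVars false

namespace Vale.Agent.P336

open Finset Vale.Agent.P336.Expansion

/-- The circuit computes `f`. -/
def Circuit.Computes {n : ℕ} (C : Circuit n) (f : (Fin n → Bool) → Bool) : Prop :=
  ∀ x, C.Accepts x ↔ f x = true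

theorem S3_le {n : ℕ} {f : (Fin n → Bool) → Bool} {C : Circuit n} (h : C.Computes f) :
    S3 f ≤ C.size := Nat.sInf_le ⟨C, rfl, h⟩

/-- The literal which is false exactly if `x i = b`. -/
def litOf {n : ℕ} (i : Fin n) (b : Bool) : Lit n := if b then .neg i else .pos i

theorem litOf_eval {n : ℕ} (i : Fin n) (b : Bool) (x : Fin n → Bool) :
    (litOf i b).eval x = true ↔ x i ≠ b := by
  cases b <;> simp [litOf, Lit.eval]

/-- Every function is computed by a circuit. -/
theorem exists_circuit {n : ℕ} (f : (Fin n → Bool) → Bool) :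
    ∃ C : Circuit n, C.Computes f := by
  classical
  let e := Fintype.equivFin {y : Fin n → Bool // f y = false}
  refine ⟨⟨Fintype.card {y : Fin n → Bool // f y = false}, 1,
    fun k => {l | ∃ i, l = litOf i ((e.symm k).1 i)}, fun _ => Set.univ, Set.univ⟩, fun x => ?_⟩
  have key : (Circuit.mk (Fintype.card {y : Fin n → Bool // f y = false}) 1
      (fun k => {l | ∃ i, l = litOf i ((e.symm k).1 i)}) (fun _ => Set.univ)
      Set.univ).Accepts x ↔ ∀ k, ∃ l, (∃ i, l = litOf i ((e.symm k).1 i)) ∧ l.eval x = true :=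
    ⟨fun ⟨_, _, h⟩ k => h k (Set.mem_univ _), fun h => ⟨0, Set.mem_univ _, fun k _ => h k⟩⟩
  rw [key]
  constructor
  · intro h
    by_contra hx
    have hx : f x = false := by simpa using hx
    obtain ⟨l, ⟨i, rfl⟩, hl⟩ := h (e ⟨x, hx⟩)
    rw [litOf_eval] at hl
    simp at hl
  · intro hx k
    have h1 : (e.symm k).1 ≠ x := fun h => by
      have := (e.symm k).2
      rw [h, hx] at this
      exact Bool.noConfusion this
    obtain ⟨i, hi⟩ := Function.ne_iff.1 h1
    exact ⟨_, ⟨i, rfl⟩, (litOf_eval _ _ _).2 (Ne.symm hi)⟩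

/-- `S3 f` is attained. -/
theorem exists_S3 {n : ℕ} (f : (Fin n → Bool) → Bool) :
    ∃ C : Circuit n, C.size = S3 f ∧ C.Computes f := by
  obtain ⟨C, hC⟩ := exists_circuit f
  exact Nat.sInf_mem (s := {s | ∃ C : Circuit n, C.size = s ∧ ∀ x, C.Accepts x ↔ f x = true})
    ⟨C.size, C, rfl, hC⟩

/-- The negation of a literal or constant. -/
def Lit.not {n : ℕ} : Lit n → Lit n
  | .pos i => .neg i
  | .neg i => .pos i
  | .const b => .const (!b)

theorem Lit.not_eval {n : ℕ} (l : Lit n) (x : Fin n → Bool) : l.not.eval x = !(l.eval x) := by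
  cases l <;> simp [Lit.not, Lit.eval]

/-- Substitution of literals or constants for the variables of a literal. -/
def Lit.subst {n m : ℕ} (σ : Fin m → Lit n) : Lit m → Lit n
  | .pos i => σ i
  | .neg i => (σ i).not
  | .const b => .const b

theorem Lit.subst_eval {n m : ℕ} (σ : Fin m → Lit n) (l : Lit m) (x : Fin n → Bool) :
    (l.subst σ).eval x = l.eval fun i => (σ i).eval x := by
  cases l with
  | pos i => rfl
  | neg i => exact Lit.not_eval _ _
  | const b => rfl

/-- `S3` does not grow under substitution of literals and constants for the variables. -/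
theorem S3_subst {n m : ℕ} (σ : Fin m → Lit n) (f : (Fin n → Bool) → Bool)
    (g : (Fin m → Bool) → Bool) (h : ∀ x, f x = g fun i => (σ i).eval x) : S3 f ≤ S3 g := by
  obtain ⟨C, hC, hg⟩ := exists_S3 g
  rw [← hC]
  refine S3_le (C := ⟨C.bottom, C.middle, fun k => Lit.subst σ '' C.lits k, C.conj, C.top⟩)
    fun x => ?_
  rw [h, ← hg]
  simp only [Circuit.Accepts, Set.mem_image, exists_exists_and_eq_and, Lit.subst_eval]

/-- The clause given by a set of literals and constants. -/
noncomputable def clOf {n : ℕ} (L : Set (Lit n)) : Cl (Fin n) := by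
  classical exact ⟨univ.filter fun i => Lit.pos i ∈ L ∨ Lit.neg i ∈ L, fun i => decide (Lit.neg i ∈ L)⟩

/-- The bottom gate is not constantly true. -/
def Proper {n : ℕ} (L : Set (Lit n)) : Prop :=
  Lit.const true ∉ L ∧ ∀ i, ¬ (Lit.pos i ∈ L ∧ Lit.neg i ∈ L)

theorem sat_of_not_proper {n : ℕ} {L : Set (Lit n)} (h : ¬ Proper L) (x : Fin n → Bool) :
    ∃ l ∈ L, l.eval x = true := by
  rw [Proper, Classical.not_and_iff_not_or_not, not_not, Classical.not_forall] at h
  rcases h with h | ⟨i, h⟩
  · exact ⟨_, h, rfl⟩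
  rw [not_not] at h
  obtain ⟨hp, hn⟩ := h
  cases hx : x i
  · exact ⟨_, hn, by simp [Lit.eval, hx]⟩
  · exact ⟨_, hp, by simp [Lit.eval, hx]⟩

theorem sat_iff {n : ℕ} {L : Set (Lit n)} (h : Proper L) (x : Fin n → Bool) :
    (∃ l ∈ L, l.eval x = true) ↔ ¬ ∀ v ∈ (clOf L).S, x v = (clOf L).c v := by
  classical
  simp only [clOf, mem_filter, mem_univ, true_and, not_forall]
  constructor
  · rintro ⟨l, hl, hx⟩
    cases l with
    | pos i =>
      refine ⟨i, Or.inl hl, ?_⟩
      have h1 : Lit.neg i ∉ L := fun h2 => h.2 i ⟨hl, h2⟩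
      simp only [Lit.eval] at hx
      simp [hx, h1]
    | neg i =>
      refine ⟨i, Or.inr hl, ?_⟩
      simp only [Lit.eval] at hx
      simp only [Bool.not_eq_true'] at hx
      simp [hx, hl]
    | const b =>
      simp only [Lit.eval] at hx
      subst hx
      exact absurd hl h.1
  · rintro ⟨i, hi, hx⟩
    by_cases h1 : Lit.neg i ∈ L
    · refine ⟨_, h1, ?_⟩
      have h2 : x i = false := by simpa [h1] using hx
      simp [Lit.eval, h2]
    · have h2 := hi.resolve_right h1
      refine ⟨_, h2, ?_⟩
      have h3 : x i = true := by simpa [h1] using hx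
      simp [Lit.eval, h3]

/-- The number of points at which a clause is false. -/
theorem card_false {V : Type} [Fintype V] [DecidableEq V] (C : Cl V) :
    ((univ : Finset (V → Bool)).filter fun x => ∀ v ∈ C.S, x v = C.c v).card * 2 ^ C.S.card =
      2 ^ Fintype.card V := by
  have h1 : (univ : Finset (V → Bool)).filter (fun x => ∀ v ∈ C.S, x v = C.c v) =
      Fintype.piFinset fun v => if v ∈ C.S then {C.c v} else univ := by
    ext x
    simp only [mem_filter, mem_univ, true_and, Fintype.mem_piFinset]
    refine forall_congr' fun v => ?_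
    split_ifs with h
    · simp [h]
    · simp [h]
  have h2 : ∀ v, (if v ∈ C.S then {C.c v} else (univ : Finset Bool)).card =
      if v ∈ C.S then 1 else 2 := by
    intro v
    split_ifs <;> simp
  rw [h1, Fintype.card_piFinset, Finset.prod_congr rfl fun v _ => h2 v, Finset.prod_ite]
  simp only [prod_const_one, one_mul, prod_const]
  rw [← pow_add]
  congr 1
  have h3 := Finset.card_filter_add_card_filter_not (s := (univ : Finset V)) (fun v => v ∈ C.S)
  rw [Finset.card_univ] at h3
  have h4 : (univ.filter fun v => v ∈ C.S) = C.S := by ext; simp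
  rw [h4] at h3
  omega

end Vale.Agent.P336
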