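import Mathlib

/-!
# P336: depth-three circuits

The definitions of the statement: literals and constants, depth-three OR-AND-OR circuits, their
size (all gates are counted, gates may be shared), the complexity `S3 f`, languages, slices.
-/

namespace Vale.Agent.P336

/-- The inputs of the bottom gates: variables, negated variables and constants. -/
inductive Lit (n : ℕ)
  | pos (i : Fin n)
  | neg (i : Fin n)
  | const (b : Bool)

/-- The value of a literal or constant. -/
def Lit.eval {n : ℕ} : Lit n → (Fin n → Bool) → Bool
  | .pos i, x => x i
  | .neg i, x => !(x i)
  | .const b, _ => b

/-- A depth-three OR-AND-OR circuit on the variables `x_0, …, x_{n-1}`: bottom OR gates reading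
literals and constants, middle AND gates reading bottom gates, one top OR gate reading middle
gates.  Fan-in and fan-out are unbounded. -/
structure Circuit (n : ℕ) where
  /-- the number of bottom gates -/
  bottom : ℕ
  /-- the number of middle gates -/
  middle : ℕ
  /-- what the bottom gates read -/
  lits : Fin bottom → Set (Lit n)
  /-- what the middle gates read -/
  conj : Fin middle → Set (Fin bottom)
  /-- what the top gate reads -/
  top : Set (Fin middle)

/-- The circuit accepts the input `x`. -/
def Circuit.Accepts {n : ℕ} (C : Circuit n) (x : Fin n → Bool) : Prop :=
  ∃ j ∈ C.top, ∀ i ∈ C.conj j, ∃ l ∈ C.lits i, l.eval x = true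

/-- The total number of gates (bottom, middle and top). -/
def Circuit.size {n : ℕ} (C : Circuit n) : ℕ := C.bottom + C.middle + 1

/-- `S₃(f)`: the least size of a depth-three OR-AND-OR circuit which computes `f`. -/
noncomputable def S3 {n : ℕ} (f : (Fin n → Bool) → Bool) : ℕ :=
  sInf {s | ∃ C : Circuit n, C.size = s ∧ ∀ x, C.Accepts x ↔ f x = true}

open Classical in
/-- The membership function of the language `L` on the words of length `n`. -/
noncomputable def slice (L : Set (List Bool)) (n : ℕ) : (Fin n → Bool) → Bool :=
  fun x => decide (List.ofFn x ∈ L)

open Classical in
/-- `L` is decided by a deterministic (multi-stack) Turing machine with finite alphabets in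
polynomial time. -/
def InP (L : Set (List Bool)) : Prop :=
  ∃ M : Turing.TM2ComputableInPolyTime (id : List Bool → List Bool) Computability.encodeBool
      (fun w => decide (w ∈ L)), ∀ k, Finite (M.tm.Γ k)

end Vale.Agent.P336
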